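import Vale.Agent.P183M.IF3
import Vale.Agent.P183AU.NF

/-!
Construction of rational isometries (helper2).
-/

set_option autoImplicit false
set_option linter.all false

namespace Vale.Agent.P183HC

open Matrix Vale.Agent.P183M Vale.Agent.P183AU

lemma pp_ind {ι B : Type} [Monoid B] {P : B → B → Prop} {s : Finset ι} {f g : ι → B} (h1 : P 1 1)
    (h2 : ∀ i ∈ s, ∀ x y, P x y → P (f i * x) (g i * y)) : P (pp s f) (pp s g) := by
  have key : ∀ l : List ι, (∀ i ∈ l, i ∈ s) → P (l.map f).prod (l.map g).prod := by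
    intro l hl
    induction l with
    | nil => exact h1
    | cons i l ih =>
      rw [List.map_cons, List.map_cons, List.prod_cons, List.prod_cons]
      exact h2 i (hl i List.mem_cons_self) _ _ (ih fun j hj => hl j (List.mem_cons_of_mem _ hj))
  exact key _ fun i hi => Finset.mem_toList.1 hi

lemma pp_image {ι B : Type} [Monoid B] [DecidableEq ι] {s : Finset ι} {φ : ι → ι}
    (hφ : Function.Injective φ) {f : ι → B}
    (hc : ∀ i ∈ s.image φ, ∀ j ∈ s.image φ, i ≠ j → Commute (f i) (f j)) :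
    pp (s.image φ) f = pp s fun i => f (φ i) := by
  have h1 : (s.image φ).toList.Perm (s.toList.map φ) := by
    rw [List.perm_ext_iff_of_nodup (Finset.nodup_toList _) ((Finset.nodup_toList s).map hφ)]
    simp
  have h2 : ((s.image φ).toList.map f).Pairwise Commute := by
    rw [List.pairwise_map]
    exact (Finset.nodup_toList _).pairwise_of_forall_ne fun i hi j hj =>
      hc i (Finset.mem_toList.1 hi) j (Finset.mem_toList.1 hj)
  unfold pp
  rw [(h1.map f).prod_eq' h2, List.map_map]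
  rfl

lemma adj_dot {k : Type} [CommRing k] {n : ℕ} {J A A' : Matrix (Fin n) (Fin n) k}
    (hA : Aᵀ * J = J * A') (x y : Fin n → k) :
    (A *ᵥ x) ⬝ᵥ (J *ᵥ y) = x ⬝ᵥ (J *ᵥ (A' *ᵥ y)) := by
  rw [mulVec_mulVec, ← hA, ← mulVec_mulVec, dotProduct_mulVec x, vecMul_transpose]

lemma adj_mul {k : Type} [CommRing k] {n : ℕ} {J A A' B B' : Matrix (Fin n) (Fin n) k}
    (hA : Aᵀ * J = J * A') (hB : Bᵀ * J = J * B') : (A * B)ᵀ * J = J * (B' * A') := by
  rw [transpose_mul, Matrix.mul_assoc, hA, ← Matrix.mul_assoc, hB, Matrix.mul_assoc]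

variable {p : ℕ} {G : Type} [Group G] {R F0 : Type} [CommRing R] [Field F0] {d : ℕ}
  {D : Dat G R F0 d} {k : Type} [Field k] {n : ℕ} {τ τ' : G →* Matrix (Fin n) (Fin n) k}
  [hp : Fact p.Prime] [CharP k p] [IsAlgClosed k] [Fintype F0] [CharP F0 p]
  {a b c y : G} {i j l : Fin d} {v : Fin d → R} {S S' : Finset (F0 →+* k)}

lemma MM_adj {J : Matrix (Fin n) (Fin n) k}
    (hJ : ∀ y, (CF p D τ' S y)ᵀ * J = J * ((-1 : k) ^ S.card • CF p D τ S y)) :
    (MM p D τ' a b c S)ᵀ * J = J * -MM p D τ a b c S := by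
  have h1 : ((-1 : k) ^ S.card) * (-1) ^ S.card = 1 := by rw [← mul_pow, neg_mul_neg, mul_one, one_pow]
  unfold MM
  rw [transpose_sub, transpose_smul, Matrix.sub_mul, Matrix.smul_mul,
    adj_mul (adj_mul (hJ a) (hJ b)) (hJ c), adj_mul (adj_mul (hJ c) (hJ b)) (hJ a),
    ← Matrix.mul_smul, ← Matrix.mul_sub, neg_sub]
  simp only [Matrix.smul_mul, Matrix.mul_smul, smul_smul, h1, mul_one, one_mul, one_smul,
    Matrix.mul_assoc]

variable (T : TV D τ) (h : CD p D)
include T h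

lemma MM_eq (S : Finset (F0 →+* k)) : MM p D τ a b c S =
    T.KK (D.W3 a b c) S - (-1 : k) ^ S.card • T.KK (D.W3 c b a) S := by
  simp only [MM, T.cf_eq h, T.KK_mul, Dat.W3]

lemma MM_comm (hS : Disjoint S S') : Commute (MM p D τ a b c S) (MM p D τ a b c S') := by
  rw [MM_eq T h, MM_eq T h]
  exact ((T.KK_comm _ _ hS).sub_right ((T.KK_comm _ _ hS).smul_right _)).sub_left
    (((T.KK_comm _ _ hS).sub_right ((T.KK_comm _ _ hS).smul_right _)).smul_left _)

variable (w : Wd D a b c y i j l v)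
include w

lemma MM_sq (hS : S.Nonempty) : MM p D τ a b c S * MM p D τ a b c S = 0 := by
  rw [MM_eq T h]
  simp only [Matrix.sub_mul, Matrix.mul_sub, Matrix.smul_mul, Matrix.mul_smul, T.KK_mul, w.s11,
    w.s12, w.s21, w.s22, T.KK_zero hS, smul_zero, sub_zero]

lemma MM_inv (hS : S.Nonempty) : (1 + -MM p D τ a b c S) * (1 + MM p D τ a b c S) = 1 := by
  rw [add_mul, mul_add, mul_add, neg_mul, neg_mul, MM_sq T h w hS]
  simp

lemma CF_mul_zero (hS : ¬ Disjoint S S') (z : G) : CF p D τ S z * CF p D τ S' z = 0 := by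
  obtain ⟨e, h1, h2⟩ := Finset.not_disjoint_iff.1 hS
  have h3 : D.Nn z * D.Nn z = 0 := by
    unfold Dat.Nn
    rw [mul_assoc, ← mul_assoc (D.ρ z⁻¹), ← mul_assoc (D.ρ z⁻¹), ← map_mul, inv_mul_cancel,
      map_one, one_mul, mul_assoc, ← mul_assoc D.N0, w.nn, zero_mul, mul_zero]
  rw [T.cf_eq h, T.cf_eq h, ← Finset.insert_erase h1, ← Finset.insert_erase h2, Finset.insert_eq,
    Finset.insert_eq, Finset.union_comm, T.KK_union _ (by simp), T.KK_union _ (by simp),
    mul_assoc, ← mul_assoc (T.KK _ {e}), T.KK_mul, h3, T.KK_zero (Finset.singleton_nonempty e),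
    zero_mul, mul_zero]

/-- the quadratic form is preserved -/
theorem quad (hq : D.quad) (h2 : (2 : k) = 0) {J : Matrix (Fin n) (Fin n) k}
    {Q : (Fin n → k) → k} (q1 : ∀ x y, Q (x + y) = Q x + Q y + x ⬝ᵥ (J *ᵥ y))
    (q2 : ∀ (c : k) x, Q (c • x) = c ^ 2 * Q x) (q3 : ∀ g x, Q (τ g *ᵥ x) = Q x)
    (hJ : ∀ S y, (CF p D τ S y)ᵀ * J = J * CF p D τ S y) (hS : S.Nonempty) (x : Fin n → k) :
    Q ((1 + MM p D τ a b c S) *ᵥ x) = Q x := by
  have hp2 : p = 2 := (Nat.prime_dvd_prime_iff_eq hp.out Nat.prime_two).1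
    ((CharP.cast_eq_zero_iff k p 2).1 (by exact_mod_cast h2))
  have hs : ∀ x y : Fin n → k, x ⬝ᵥ (J *ᵥ y) = y ⬝ᵥ (J *ᵥ x) := fun x y => by
    linear_combination q1 y x - q1 x y + congrArg Q (add_comm x y)
  have hi : ∀ g (x y : Fin n → k), (τ g *ᵥ x) ⬝ᵥ (J *ᵥ (τ g *ᵥ y)) = x ⬝ᵥ (J *ᵥ y) :=
    fun g x y => by
      have := q1 (τ g *ᵥ x) (τ g *ᵥ y)
      rw [← mulVec_add, q3, q3, q3, q1] at this
      linear_combination -this
  have h3 : ∀ S, (T.KK (D.W3 a b c) S)ᵀ * J = J * T.KK (D.W3 c b a) S := fun S => by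
    have := adj_mul (adj_mul (hJ S a) (hJ S b)) (hJ S c)
    simpa only [T.cf_eq h, T.KK_mul, Dat.W3, mul_assoc] using this
  obtain ⟨y0, u, hu⟩ := w.q hq
  have h4 : ∀ S : Finset (F0 →+* k), S.Nonempty → ∀ z x, x ⬝ᵥ (J *ᵥ (CF p D τ S z *ᵥ x)) = 0 := by
    intro S ⟨e, he⟩ z x
    rw [← inv_mul_cancel_right z y0, ← CF_conj, ← mulVec_mulVec, ← mulVec_mulVec]
    generalize z * y0⁻¹ = g
    conv_lhs => rw [← mul_inv_vec τ g x]
    rw [inv_mul_vec, hi]
    generalize τ g⁻¹ *ᵥ x = x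
    by_cases h5 : ↑S ⊆ Set.range T.dg
    · obtain ⟨α, rfl⟩ := h5 he
      have h6 : Disjoint {T.dg α} (S.erase (T.dg α)) := by simp
      have h7 := hJ (S.erase (T.dg α)) y0
      rw [T.cf_eq h] at h7 ⊢
      rw [← Finset.insert_erase he, Finset.insert_eq, T.KK_union _ h6, T.KK_single]
      conv_lhs => rw [hu]
      rw [Matrix.map_smul' _ _ _ (map_mul _), Matrix.map_add _ (map_add _), map_smul, map_add,
        ← T.KK_single, ← T.KK_single, ← hu, Matrix.smul_mul, Matrix.add_mul, smul_mulVec,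
        add_mulVec, mulVec_smul, mulVec_add, dotProduct_smul, dotProduct_add,
        ← mulVec_mulVec x (T.KK (D.W3 c b a) _), ← adj_dot (h3 _), ← adj_dot h7, hs _ x,
        mulVec_mulVec x (T.KK (D.Nn y0) _), ← (T.KK_comm _ _ h6).eq, ← two_mul, h2, zero_mul,
        smul_zero]
    · rw [T.cf_eq h, T.KK_out _ h5, zero_mulVec, mulVec_zero, dotProduct_zero]
  have h0 : Q 0 = 0 := by simpa using q2 0 0
  have h5 : ∀ S : Finset (F0 →+* k), S.Nonempty → ∀ z x, Q (CF p D τ S z *ᵥ x) = 0 := by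
    intro S hS z x
    have h6 : ∀ (t : F0) (s : Finset (Finset (F0 →+* k))),
        Q (∑ S ∈ s, χ S t • (CF p D τ S z *ᵥ x)) = ∑ S ∈ s, χ S t ^ 2 * Q (CF p D τ S z *ᵥ x) := by
      intro t s
      induction s using Finset.induction_on with
      | empty => exact h0
      | insert S s hS ih =>
        rw [Finset.sum_insert hS, Finset.sum_insert hS, q1, ih, q2, mulVec_sum, dotProduct_sum,
          add_eq_left]
        refine Finset.sum_eq_zero fun S' hS' => ?_
        rw [mulVec_smul, dotProduct_smul, smul_dotProduct, adj_dot (hJ S z),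
          mulVec_mulVec x (CF p D τ S z)]
        by_cases h7 : Disjoint S S'
        · rw [T.cf_eq h, T.cf_eq h, ← T.KK_union _ h7, ← T.cf_eq h, h4, smul_zero, smul_zero]
          rw [Finset.nonempty_iff_ne_empty, Ne, Finset.union_eq_empty]
          rintro ⟨rfl, rfl⟩
          exact hS hS'
        · rw [CF_mul_zero T h w h7, zero_mulVec, mulVec_zero, dotProduct_zero, smul_zero, smul_zero]
    have h7 := cf_sum (p := p) S fun S => (fz p 1).symm (Q (CF p D τ S z *ᵥ x))
    have h8 : (fun t => ∑ S', χ S' t • (fz p 1).symm (Q (CF p D τ S' z *ᵥ x))) =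
        fun t => χ (∅ : Finset (F0 →+* k)) t • (fz p 1).symm (Q x) := by
      funext t
      apply (fz p 1).injective
      rw [χ_empty, one_smul, RingEquiv.apply_symm_apply, ← q3 (D.xx z t), T.exp h, sum_mulVec,
        map_sum]
      simp only [← T.cf_eq h, smul_mulVec]
      rw [h6]
      refine Finset.sum_congr rfl fun S' _ => ?_
      rw [smul_eq_mul, map_mul, RingEquiv.apply_symm_apply, fz_one, ← hp2]
    rw [h8, cf_gen, if_neg hS.ne_empty.symm] at h7
    exact (map_eq_zero_iff _ (fz p 1).symm.injective).1 h7.symm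
  have h6 : ∀ a b c, Q (T.KK (D.W3 a b c) S *ᵥ x) = 0 := fun a b c => by
    rw [Dat.W3, mul_assoc, ← T.KK_mul, ← mulVec_mulVec, ← T.cf_eq h, h5 S hS]
  have h7 : (-1 : k) = 1 := by linear_combination -h2
  rw [MM_eq T h, sub_eq_add_neg, ← neg_one_smul k, h7, one_pow, one_smul, one_smul, add_mulVec,
    one_mulVec, add_mulVec, q1, q1, h6, h6, adj_dot (h3 S), mulVec_mulVec x (T.KK _ S), T.KK_mul,
    w.s22, T.KK_zero hS, mulVec_add, dotProduct_add, ← adj_dot (h3 S), hs (_ *ᵥ x) x,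
    ← two_mul (x ⬝ᵥ _), h2]
  simp

omit T h w in
theorem hc (he : EQ) : HC := by
  intro p _ G _ T T' C C' ψ hm hm' hAT a b c y i j l v w hq s hF hs1 hs2
  have hE := he p G T T' C C' ψ hm hm' hAT
  have h := C.cd
  have h' := C'.cd
  obtain ⟨M, hM⟩ := descent_mat (p := p) (fun θ => gg p C.D (C.tt C' ψ θ) a b c (s θ)) fun θ => by
    obtain ⟨V⟩ := hAT (sh p 1 θ)
    have h1 := hF (sh p 1 θ)
    unfold gg
    rw [hs1] at h1 ⊢
    rw [pp_image (Finset.image_injective (sh_inj 1)) fun S hS S' hS' hne =>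
      ((Commute.one_left _).add_left ((Commute.one_right _).add_right
        (MM_comm V h (h1.2 S hS S' hS' hne))))]
    refine pp_ind (P := fun x y => x = Matrix.map y (fz p 1)) (Matrix.map_one _ (map_zero _)
      (map_one _)).symm fun S _ x y e => ?_
    rw [e, Matrix.map_mul, MM, MM, (hE θ).1, (hE θ).1, (hE θ).1,
      Finset.card_image_of_injective _ (sh_inj 1), Matrix.map_add _ (map_add _),
      Matrix.map_one _ (map_zero _) (map_one _), Matrix.map_sub _ (map_sub _),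
      Matrix.map_smul' _ _ _ (map_mul _), map_pow, map_neg, map_one]
    simp only [Matrix.map_mul]
  have hJ : ∀ θ : C'.R →+* kk p, (M.map (C'.bar θ))ᵀ * C'.D.J.map θ * M.map θ = C'.D.J.map θ := by
    intro θ
    obtain ⟨V⟩ := hAT θ
    rw [hM, hM, hs2]
    refine pp_ind (P := fun x y => xᵀ * C'.D.J.map θ * y = C'.D.J.map θ) (by simp)
      fun S hS x y e => ?_
    rw [transpose_mul, Matrix.mul_assoc xᵀ, transpose_add, transpose_one, Matrix.add_mul,
      MM_adj ((hE θ).2.1 S), Matrix.one_mul, ← mul_one_add, ← Matrix.mul_assoc,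
      Matrix.mul_assoc xᵀ, Matrix.mul_assoc (C'.D.J.map θ), MM_inv V h w ((hF θ).1 S hS),
      Matrix.mul_one, e]
  have h1 : (M.map C'.D.σ)ᵀ * C'.D.J * M = C'.D.J := by
    ext α β
    refine eq_of_hom (k := kk p) (p := p) fun θ => ?_
    have := congrFun (congrFun (hJ θ) α) β
    rw [← Matrix.map_apply (f := θ), Matrix.map_mul, Matrix.map_mul]
    exact this
  have h2 : IsUnit M.det := by
    have := congrArg det h1
    rw [det_mul] at this
    exact isUnit_of_mul_isUnit_right (this ▸ h'.nondeg)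
  have h3 : ∀ x y, C'.D.β (M *ᵥ x) (M *ᵥ y) = C'.D.β x y := fun x y => by
    rw [β_mul, mulVec_mulVec, h1]
    rfl
  have h4 : ∀ x, M *ᵥ (M⁻¹ *ᵥ x) = x := fun x => by
    rw [mulVec_mulVec, mul_nonsing_inv _ h2, one_mulVec]
  have h5 : ∀ x, C'.D.sing (M *ᵥ x) ↔ C'.D.sing x := by
    intro x
    by_cases hq' : C'.D.quad
    · obtain ⟨θ⟩ : Nonempty (C'.R →+* kk p) := by
        by_contra h0
        exact not_isUnit_zero (isUnit_of_hom (k := kk p) (p := p) (r := (0 : C'.R))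
          fun θ => absurd ⟨θ⟩ h0)
      obtain ⟨V⟩ := hAT θ
      obtain ⟨Q, q1, q2, q3, -, q4⟩ := ext_Q h' hq' θ
      obtain ⟨e2, -, eσ, -⟩ := h'.quadr hq'
      have e3 : (2 : kk p) = 0 := by rw [← map_ofNat θ 2, e2, map_zero]
      have e4 : (-1 : kk p) = 1 := by linear_combination -e3
      have e5 : C'.bar θ = θ := RingHom.ext fun r => congrArg θ (eσ r)
      have e6 : ∀ z, Q (M.map θ *ᵥ z) = Q z := by
        rw [hM]
        refine pp_ind (P := fun x _ => ∀ z, Q (x *ᵥ z) = Q z) (g := fun _ => 1)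
          (fun z => by rw [one_mulVec]) fun S hS x _ e z => ?_
        rw [← mulVec_mulVec, quad V h w (hq hq') e3 q1 q2 (fun g => q4 (ψ g)) (fun S y => by
          have := (hE θ).2.1 S y
          rwa [e5, e4, one_pow, one_smul] at this) ((hF θ).1 S hS), e]
      rw [q3, q3, ← e6 (θ ∘ x)]
      exact iff_of_eq (congrArg (Q · = 0) (map_mulVec' θ M x).symm)
    · exact ⟨fun h6 => h'.sing_of hq' _ (by rw [← h3]; exact h'.sing_self _ h6),
        fun h6 => h'.sing_of hq' _ (by rw [h3]; exact h'.sing_self _ h6)⟩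
  exact ⟨M, M⁻¹, mul_nonsing_inv _ h2, nonsing_inv_mul _ h2, hM,
    h'.norm M M⁻¹ (mul_nonsing_inv _ h2) (nonsing_inv_mul _ h2) h3 fun x => (h5 x).2,
    h'.norm M⁻¹ M (nonsing_inv_mul _ h2) (mul_nonsing_inv _ h2)
      (fun x y => by rw [← h3, h4, h4]) fun x hx => (h5 _).1 (by rwa [h4])⟩

end Vale.Agent.P183HC
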